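import Vale.Agent.P269.G1I.ZAbs

/-!
# [ZA1] the abstract recursion for the conjugated Virasoro operators
-/

namespace Vale.Agent.P269.G1.H406

open Finset.HasAntidiagonal (antidiagonal)

section

variable (R : Type*) {O : Type*} [CommRing R] [Algebra ℚ R] [Ring O] [Algebra R O]

theorem kk_comm (q : ℚ) (x : O) : (kk R q : O) * x = x * kk R q := by
  unfold kk
  exact Algebra.commutes _ _

theorem kk_add (q r : ℚ) : (kk R (q + r) : O) = kk R q + kk R r := by
  unfold kk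
  rw [map_add, map_add]

theorem kk_nat (n : ℕ) : (kk R (n : ℚ) : O) = n := by
  unfold kk
  rw [map_natCast, map_natCast]

theorem kk_one : (kk R 1 : O) = 1 := by
  unfold kk
  rw [map_one, map_one]

/-- `μ R^i = R^i (μ + i)` -/
theorem mu_pow (mu Rc : O) (hR : mu * Rc = Rc * mu + Rc) (i : ℕ) :
    mu * Rc ^ i = Rc ^ i * (mu + (kk R (i : ℚ) : O)) := by
  induction i with
  | zero => simp [kk]
  | succ i ih =>
    rw [pow_succ, ← mul_assoc, ih, mul_assoc, add_mul, hR, kk_comm, Nat.cast_succ, kk_add, kk_one,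
      mul_assoc]
    congr 1
    noncomm_ring

theorem ee_zero (mu : O) (ee : ℤ → ℕ → ℕ → O)
    (e0s : ∀ m i, ee m 0 (i + 1) = 0)
    (ess : ∀ m K i, ee m (K + 1) (i + 1) =
      ee m K i + (mu + kk R ((m : ℚ) + 1 / 2 + K)) * ee m K (i + 1))
    (m : ℤ) (K i : ℕ) (h : K < i) : ee m K i = 0 := by
  induction K generalizing i with
  | zero =>
    obtain ⟨j, rfl⟩ : ∃ j, i = j + 1 := ⟨i - 1, by omega⟩
    exact e0s m j
  | succ K ih =>
    obtain ⟨j, rfl⟩ : ∃ j, i = j + 1 := ⟨i - 1, by omega⟩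
    rw [ess, ih j (by omega), ih (j + 1) (by omega), mul_zero, add_zero]

/-- one step of the recursion -/
theorem aK_succ (U mu Rc : O) (S : ℤ → O) (ee : ℤ → ℕ → ℕ → O)
    (hS2 : ∀ n : ℤ, U * S (n - 1) = kk R n * S n + S n * mu - mu * S n + S (n - 1) * Rc)
    (hR : mu * Rc = Rc * mu + Rc)
    (e0s : ∀ m i, ee m 0 (i + 1) = 0)
    (es0 : ∀ m K, ee m (K + 1) 0 = (mu + kk R ((m : ℚ) + 1 / 2 + K)) * ee m K 0)
    (ess : ∀ m K i, ee m (K + 1) (i + 1) =
      ee m K i + (mu + kk R ((m : ℚ) + 1 / 2 + K)) * ee m K (i + 1))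
    (m p : ℤ) (K : ℕ) :
    aK S Rc ee m (K + 1) p =
      (kk R ((p : ℚ) - 1 / 2) + mu) * aK S Rc ee m K (p - 1) + U * aK S Rc ee m K p := by
  have hz : ee m K (K + 1) = 0 := ee_zero R mu ee e0s ess m K (K + 1) (by omega)
  -- left side
  have hL : aK S Rc ee m (K + 1) p =
      (∑ i ∈ Finset.range (K + 1), S (m + K + 1 - i - p) * Rc ^ i *
        ((mu + kk R ((m : ℚ) + 1 / 2 + K)) * ee m K i)) +
      ∑ i ∈ Finset.range (K + 1), S (m + K - i - p) * Rc ^ (i + 1) * ee m K i := by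
    unfold aK
    rw [Finset.sum_range_succ']
    have h1 : ∀ i ∈ Finset.range (K + 1),
        S (m + ((K + 1 : ℕ) : ℤ) - ((i + 1 : ℕ) : ℤ) - p) * Rc ^ (i + 1) * ee m (K + 1) (i + 1) =
        S (m + K + 1 - ((i + 1 : ℕ) : ℤ) - p) * Rc ^ (i + 1) *
          ((mu + kk R ((m : ℚ) + 1 / 2 + K)) * ee m K (i + 1)) +
        S (m + K - i - p) * Rc ^ (i + 1) * ee m K i := by
      intro i _
      rw [ess]
      have e1 : m + ((K + 1 : ℕ) : ℤ) - ((i + 1 : ℕ) : ℤ) - p = m + K - i - p := by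
        push_cast; ring
      have e2 : m + (K : ℤ) + 1 - ((i + 1 : ℕ) : ℤ) - p = m + K - i - p := by
        push_cast; ring
      rw [e1, e2]
      noncomm_ring
    rw [Finset.sum_congr rfl h1, Finset.sum_add_distrib, es0]
    have h2 : (∑ i ∈ Finset.range (K + 1), S (m + K + 1 - ((i + 1 : ℕ) : ℤ) - p) * Rc ^ (i + 1) *
          ((mu + kk R ((m : ℚ) + 1 / 2 + K)) * ee m K (i + 1))) +
        S (m + ((K + 1 : ℕ) : ℤ) - ((0 : ℕ) : ℤ) - p) * Rc ^ 0 *
          ((mu + kk R ((m : ℚ) + 1 / 2 + K)) * ee m K 0) =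
        ∑ i ∈ Finset.range (K + 1), S (m + K + 1 - i - p) * Rc ^ i *
        ((mu + kk R ((m : ℚ) + 1 / 2 + K)) * ee m K i) := by
      have e3 : m + ((K + 1 : ℕ) : ℤ) - ((0 : ℕ) : ℤ) - p = m + K + 1 - ((0 : ℕ) : ℤ) - p := by
        push_cast; ring
      rw [e3, ← Finset.sum_range_succ' (fun i => S (m + K + 1 - (i : ℤ) - p) * Rc ^ i *
          ((mu + kk R ((m : ℚ) + 1 / 2 + K)) * ee m K i)) (K + 1),
        Finset.sum_range_succ, hz, mul_zero, mul_zero, add_zero]
    rw [← h2]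
    abel
  rw [hL]
  unfold aK
  rw [Finset.mul_sum, Finset.mul_sum, ← Finset.sum_add_distrib, ← Finset.sum_add_distrib]
  refine Finset.sum_congr rfl fun i _ => ?_
  have e1 : m + (K : ℤ) - i - (p - 1) = m + K + 1 - i - p := by ring
  have e2 : m + (K : ℤ) - i - p = (m + K + 1 - i - p) - 1 := by ring
  rw [e1, e2]
  set n : ℤ := m + K + 1 - i - p with hn
  have hU := hS2 n
  have hm := mu_pow R mu Rc hR i
  have hk : (kk R ((m : ℚ) + 1 / 2 + K) : O) =
      kk R ((p : ℚ) - 1 / 2) + kk R (n : ℚ) + kk R (i : ℚ) := by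
    rw [← kk_add, ← kk_add]
    congr 1
    rw [hn]
    push_cast
    ring
  have hA : U * (S (n - 1) * Rc ^ i * ee m K i) =
      (kk R n * S n + S n * mu - mu * S n + S (n - 1) * Rc) * Rc ^ i * ee m K i := by
    rw [← mul_assoc, ← mul_assoc, hU]
  rw [hA, hk]
  have hB : S n * mu * Rc ^ i = S n * Rc ^ i * (mu + (kk R (i : ℚ) : O)) := by
    rw [mul_assoc, hm, mul_assoc]
  have hC : (kk R (n : ℚ) : O) * S n * Rc ^ i = S n * Rc ^ i * kk R (n : ℚ) := by
    rw [mul_assoc, kk_comm]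
  have hD : (kk R ((p : ℚ) - 1 / 2) : O) * (S n * Rc ^ i) =
      S n * Rc ^ i * kk R ((p : ℚ) - 1 / 2) := by
    rw [kk_comm]
  calc S n * Rc ^ i * ((mu + (kk R ((p : ℚ) - 1 / 2) + kk R (n : ℚ) + kk R (i : ℚ))) *
        ee m K i) + S (n - 1) * Rc ^ (i + 1) * ee m K i
      = ((S n * Rc ^ i * kk R ((p : ℚ) - 1 / 2)) + (S n * Rc ^ i * kk R (n : ℚ)) +
          S n * Rc ^ i * (mu + (kk R (i : ℚ) : O))) * ee m K i +
          S (n - 1) * Rc ^ (i + 1) * ee m K i := by noncomm_ring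
    _ = ((kk R ((p : ℚ) - 1 / 2) : O) * (S n * Rc ^ i) + kk R (n : ℚ) * S n * Rc ^ i +
          S n * mu * Rc ^ i) * ee m K i + S (n - 1) * Rc ^ (i + 1) * ee m K i := by
        rw [hB, hC, hD]
    _ = _ := by rw [pow_succ']; noncomm_ring

/-- **[ZA1]** -/
theorem conj (U mu Rc : O) (S : ℤ → O) (T : ℕ → O) (ee : ℤ → ℕ → ℕ → O)
    (hS2 : ∀ n : ℤ, U * S (n - 1) = kk R n * S n + S n * mu - mu * S n + S (n - 1) * Rc)
    (hR : mu * Rc = Rc * mu + Rc)
    (hneg : ∀ n < 0, S n = 0)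
    (hU : ∀ p : ℕ, ∑ e ∈ antidiagonal p, (-1) ^ e.2 * (S e.1 * T e.2) = if p = 0 then 1 else 0)
    (e00 : ∀ m, ee m 0 0 = 1) (e0s : ∀ m i, ee m 0 (i + 1) = 0)
    (es0 : ∀ m K, ee m (K + 1) 0 = (mu + kk R ((m : ℚ) + 1 / 2 + K)) * ee m K 0)
    (ess : ∀ m K i, ee m (K + 1) (i + 1) =
      ee m K i + (mu + kk R ((m : ℚ) + 1 / 2 + K)) * ee m K (i + 1))
    (c p : ℤ) (K N : ℕ) (hN : c - p + K < N) :
    ∑ n ∈ Finset.range N, (-1) ^ n * (aK S Rc ee (c - n) K p * T n) = DD R U mu c K p := by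
  induction K generalizing p with
  | zero =>
    have h0 : ∀ n ∈ Finset.range N, (-1) ^ n * (aK S Rc ee (c - n) 0 p * T n) =
        (-1) ^ n * (S (c - p - n) * T n) := by
      intro n _
      unfold aK
      rw [Finset.sum_range_one, e00, pow_zero, mul_one, mul_one]
      have : c - (n : ℤ) + ((0 : ℕ) : ℤ) - ((0 : ℕ) : ℤ) - p = c - p - n := by push_cast; ring
      rw [this]
    rw [Finset.sum_congr rfl h0]
    have hN' : c - p < N := by simpa using hN
    rcases lt_or_ge (c - p) 0 with hc | hc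
    · have hpc : p ≠ c := by omega
      simp only [DD, if_neg hpc]
      refine Finset.sum_eq_zero fun n _ => ?_
      rw [hneg _ (by omega), zero_mul, mul_zero]
    · obtain ⟨q, hq⟩ := Int.eq_ofNat_of_zero_le hc
      have hqN : q < N := by omega
      have h1 := hU q
      rw [Finset.Nat.sum_antidiagonal_eq_sum_range_succ_mk] at h1
      rw [hq]
      have h2 : ∑ n ∈ Finset.range N, (-1) ^ n * (S ((q : ℤ) - n) * T n) =
          ∑ n ∈ Finset.range (q + 1), (-1) ^ n * (S ((q : ℤ) - n) * T n) := by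
        symm
        refine Finset.sum_subset (fun x hx => ?_) fun n _ hn => ?_
        · rw [Finset.mem_range] at hx ⊢; omega
        · rw [Finset.mem_range] at hn
          rw [hneg _ (by omega), zero_mul, mul_zero]
      rw [h2]
      have h3 : ∑ n ∈ Finset.range (q + 1), (-1) ^ n * (S ((q : ℤ) - n) * T n) =
          ∑ k ∈ Finset.range (q + 1), (-1 : O) ^ (q - k) * (S k * T (q - k)) := by
        rw [← Finset.sum_range_reflect]
        refine Finset.sum_congr rfl fun n hn => ?_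
        rw [Finset.mem_range] at hn
        have a1 : q + 1 - 1 - n = q - n := by omega
        have a2 : (q : ℤ) - ((q - n : ℕ) : ℤ) = n := by omega
        rw [a1, a2]
      rw [h3]
      refine h1.trans ?_
      simp only [DD]
      by_cases hq0 : q = 0
      · rw [if_pos hq0, if_pos (by omega)]
      · rw [if_neg hq0, if_neg (by omega)]
  | succ K ih =>
    have hstep : ∀ n ∈ Finset.range N, (-1) ^ n * (aK S Rc ee (c - n) (K + 1) p * T n) =
        (kk R ((p : ℚ) - 1 / 2) + mu) * ((-1) ^ n * (aK S Rc ee (c - n) K (p - 1) * T n)) +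
        U * ((-1) ^ n * (aK S Rc ee (c - n) K p * T n)) := by
      intro n _
      rw [aK_succ R U mu Rc S ee hS2 hR e0s es0 ess]
      have hcomm : ∀ x : O, (-1) ^ n * x = x * (-1) ^ n := fun x =>
        ((Commute.neg_one_left x).pow_left n).eq
      have h1 : ∀ x y : O, x * ((-1) ^ n * y) = (-1) ^ n * (x * y) := fun x y => by
        rw [← mul_assoc, ← hcomm, mul_assoc]
      rw [h1, h1, ← mul_add]
      noncomm_ring
    rw [Finset.sum_congr rfl hstep, Finset.sum_add_distrib, ← Finset.mul_sum, ← Finset.mul_sum,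
      ih (p - 1) (by push_cast at hN ⊢; linarith), ih p (by push_cast at hN; linarith)]
    rfl

end

end Vale.Agent.P269.G1.H406
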